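import Vale.Agent.P050.Final

/-- Sidorenko's conjecture is false: some bipartite graph `H` with at least one edge and some
graph `G` on `N ≥ 1` vertices satisfy `t(H,G) < p(G)^{|E(H)|}`. -/
theorem Vale.Agent.Results.P050.A_full.result :
    ∃ (k : ℕ) (H : SimpleGraph (Fin k)), H.IsBipartite ∧ H.edgeSet.Nonempty ∧
      ∃ (N : ℕ) (G : SimpleGraph (Fin N)), 0 < N ∧
        (Nat.card (H →g G) : ℝ) / (N : ℝ) ^ k <
          (2 * (Nat.card G.edgeSet : ℝ) / (N : ℝ) ^ 2) ^ Nat.card H.edgeSet :=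
  Vale.Agent.P050.not_sidorenko_fin
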